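import Vale.Agent.P151.QP.Stmts
import Vale.Agent.P151.R2.H279.Iso

/-!
# Heat kernel bound of the killed lazy walk from the growth of balls (Nash / Faber-Krahn)
-/

set_option autoImplicit false

open Finset SimpleGraph

namespace Vale.Agent.P151.H820

open Vale.Agent.P151 Vale.Agent.P151.QP

variable {V : Type*} [DecidableEq V]

/-! ### Powers of a kernel -/

omit [DecidableEq V] in
lemma kc_assoc (U : Finset V) (A B C : V → V → ℝ) :
    kc U (kc U A B) C = kc U A (kc U B C) := by
  funext x y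
  unfold kc
  simp only [Finset.sum_mul, Finset.mul_sum]
  rw [Finset.sum_comm]
  apply Finset.sum_congr rfl
  intro z _
  apply Finset.sum_congr rfl
  intro w _
  ring

/-- `pw t = M ^ (t + 1)`. -/
noncomputable def pw (U : Finset V) (M : V → V → ℝ) : ℕ → V → V → ℝ
  | 0 => M
  | t + 1 => kc U M (pw U M t)

lemma kc_pw (U : Finset V) (M : V → V → ℝ) (s t : ℕ) :
    kc U (pw U M s) (pw U M t) = pw U M (s + t + 1) := by
  induction s with
  | zero => rw [Nat.zero_add]; rfl
  | succ s ih =>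
    show kc U (kc U M (pw U M s)) (pw U M t) = _
    rw [kc_assoc, ih, show s + 1 + t + 1 = (s + t + 1) + 1 by omega]
    rfl

lemma qq_eq (U : Finset V) (M : V → V → ℝ) (j : ℕ) : qq U M j = pw U M (2 ^ j - 1) := by
  induction j with
  | zero => rfl
  | succ j ih =>
    show kc U (qq U M j) (qq U M j) = _
    rw [ih, kc_pw]
    congr 1
    have := Nat.one_le_two_pow (n := j)
    rw [pow_succ]
    omega

lemma pw_symm (U : Finset V) {M : V → V → ℝ} (hM : ∀ x y, M x y = M y x) (t : ℕ) :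
    ∀ x y, pw U M t x y = pw U M t y x := by
  induction t with
  | zero => exact hM
  | succ t ih =>
    intro x y
    have h1 : pw U M (t + 1) y x = kc U (pw U M t) (pw U M 0) y x := by
      rw [kc_pw]
    rw [h1]
    show kc U M (pw U M t) x y = _
    unfold kc
    apply Finset.sum_congr rfl
    intro z _
    rw [ih z y, hM x z, mul_comm]
    rfl

/-! ### The kernel -/

variable {G : SimpleGraph V} [G.LocallyFinite]

lemma kM_symm (d : ℕ) (U : Finset V) (x y : V) : kM G d U x y = kM G d U y x := by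
  unfold kM
  by_cases h : x ∈ U ∧ y ∈ U
  · rw [if_pos h, if_pos h.symm]
    by_cases hxy : x = y
    · subst hxy; rfl
    · rw [if_neg hxy, if_neg (Ne.symm hxy)]
      by_cases ha : G.Adj x y
      · rw [if_pos ha, if_pos ha.symm]
      · rw [if_neg ha, if_neg (fun h' => ha h'.symm)]
  · rw [if_neg h, if_neg (fun h' => h h'.symm)]

lemma kM_zero_left {d : ℕ} {U : Finset V} {x : V} (hx : x ∉ U) (y : V) : kM G d U x y = 0 := by
  unfold kM
  rw [if_neg (fun h => hx h.1)]

section deg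

variable {d : ℕ} (hd1 : 1 ≤ d) (hd : ∀ v, G.degree v ≤ d)

include hd1 hd

lemma half_deg (x : V) : (G.degree x : ℝ) / (2 * d) ≤ 1 / 2 := by
  have h1 : (0 : ℝ) < d := by exact_mod_cast hd1
  have h2 : (G.degree x : ℝ) ≤ d := by exact_mod_cast hd x
  rw [div_le_div_iff₀ (by positivity) (by norm_num)]
  nlinarith

lemma kM_nonneg (U : Finset V) (x y : V) : 0 ≤ kM G d U x y := by
  have h := half_deg hd1 hd x
  unfold kM
  split_ifs
  · linarith
  · positivity
  · exact le_rfl
  · exact le_rfl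

open Classical in
/-- The action of the kernel on a function. -/
lemma kM_apply {U : Finset V} {x : V} (hx : x ∈ U) (f : V → ℝ) (hf : ∀ y, y ∉ U → f y = 0) :
    ∑ y ∈ U, kM G d U x y * f y =
      f x - (1 / (2 * d : ℝ)) * ∑ y ∈ G.neighborFinset x, (f x - f y) := by
  have hd0 : (0 : ℝ) < d := by exact_mod_cast hd1
  have h1 : ∑ y ∈ U, kM G d U x y * f y =
      (1 - (G.degree x : ℝ) / (2 * d)) * f x +
        ∑ y ∈ U, (if G.Adj x y then 1 / (2 * d : ℝ) * f y else 0) := by
    rw [← Finset.add_sum_erase U _ hx, ← Finset.add_sum_erase U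
      (fun y => if G.Adj x y then 1 / (2 * d : ℝ) * f y else 0) hx]
    have e1 : kM G d U x x = 1 - (G.degree x : ℝ) / (2 * d) := by
      unfold kM
      rw [if_pos ⟨hx, hx⟩, if_pos rfl]
    rw [e1, if_neg (G.irrefl)]
    rw [zero_add]
    congr 1
    apply Finset.sum_congr rfl
    intro y hy
    rw [Finset.mem_erase] at hy
    unfold kM
    rw [if_pos ⟨hx, hy.2⟩, if_neg (Ne.symm hy.1)]
    split_ifs
    · rfl
    · rw [zero_mul]
  have h2 : ∑ y ∈ U, (if G.Adj x y then 1 / (2 * d : ℝ) * f y else 0) =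
      ∑ y ∈ G.neighborFinset x, 1 / (2 * d : ℝ) * f y := by
    rw [← Finset.sum_filter]
    apply Finset.sum_subset
    · intro y hy
      rw [Finset.mem_filter] at hy
      rw [SimpleGraph.mem_neighborFinset]
      exact hy.2
    · intro y hy hy2
      rw [SimpleGraph.mem_neighborFinset] at hy
      have : y ∉ U := fun h => hy2 (Finset.mem_filter.2 ⟨h, hy⟩)
      rw [hf y this, mul_zero]
  rw [h1, h2, ← Finset.mul_sum, Finset.sum_sub_distrib, Finset.sum_const,
    SimpleGraph.card_neighborFinset_eq_degree, nsmul_eq_mul]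
  field_simp
  ring

/-- Row sums. -/
lemma kM_row (U : Finset V) (x : V) : ∑ y ∈ U, kM G d U x y ≤ 1 := by
  by_cases hx : x ∈ U
  · have h := kM_apply hd1 hd hx (fun y => if y ∈ U then 1 else 0) (fun y hy => if_neg hy)
    have e : ∑ y ∈ U, kM G d U x y * (if y ∈ U then (1 : ℝ) else 0) = ∑ y ∈ U, kM G d U x y := by
      apply Finset.sum_congr rfl
      intro y hy
      rw [if_pos hy, mul_one]
    rw [e] at h
    rw [h]
    simp only [if_pos hx]
    have : 0 ≤ ∑ y ∈ G.neighborFinset x, ((1 : ℝ) - if y ∈ U then 1 else 0) := by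
      apply Finset.sum_nonneg
      intro y _
      split_ifs <;> norm_num
    have h2 : 0 ≤ (1 / (2 * d : ℝ)) * ∑ y ∈ G.neighborFinset x, ((1 : ℝ) - if y ∈ U then 1 else 0) :=
      mul_nonneg (by positivity) this
    linarith
  · rw [Finset.sum_eq_zero]
    · norm_num
    · intro y _
      exact kM_zero_left hx y

lemma kM_col (U : Finset V) (y : V) : ∑ x ∈ U, kM G d U x y ≤ 1 := by
  rw [Finset.sum_congr rfl fun x _ => kM_symm (G := G) d U x y]
  exact kM_row hd1 hd U y

/-! ### The energy -/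

omit hd1 in
open Classical in
/-- Summing over neighbours of points of `U`. -/
lemma nb_sum_le {U : Finset V} (f : V → ℝ) (hf0 : ∀ y, 0 ≤ f y) (hf : ∀ y, y ∉ U → f y = 0) :
    ∑ x ∈ U, ∑ y ∈ G.neighborFinset x, f y ≤ ∑ y ∈ U, (G.degree y : ℝ) * f y := by
  have h1 : ∑ x ∈ U, ∑ y ∈ G.neighborFinset x, f y =
      ∑ x ∈ U, ∑ y ∈ U.filter (fun y => G.Adj x y), f y := by
    apply Finset.sum_congr rfl
    intro x _
    symm
    apply Finset.sum_subset
    · intro y hy
      rw [Finset.mem_filter] at hy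
      rw [SimpleGraph.mem_neighborFinset]
      exact hy.2
    · intro y hy hy2
      rw [SimpleGraph.mem_neighborFinset] at hy
      exact hf y fun h => hy2 (Finset.mem_filter.2 ⟨h, hy⟩)
  rw [h1]
  have h2 : ∑ x ∈ U, ∑ y ∈ U.filter (fun y => G.Adj x y), f y =
      ∑ y ∈ U, ∑ x ∈ U.filter (fun x => G.Adj y x), f y := by
    apply Finset.sum_comm'
    intro x y
    simp only [Finset.mem_filter, G.adj_comm x y]
    tauto
  rw [h2]
  apply Finset.sum_le_sum
  intro y _
  rw [Finset.sum_const, nsmul_eq_mul]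
  apply mul_le_mul_of_nonneg_right _ (hf0 y)
  rw [← SimpleGraph.card_neighborFinset_eq_degree]
  exact_mod_cast Finset.card_le_card (fun x hx => by
    rw [Finset.mem_filter] at hx
    rw [SimpleGraph.mem_neighborFinset]
    exact hx.2)

/-- The Dirichlet form. -/
lemma energy {U : Finset V} (f : V → ℝ) (hf : ∀ y, y ∉ U → f y = 0) :
    (1 / (4 * d : ℝ)) * ∑ x ∈ U, ∑ y ∈ G.neighborFinset x, (f x - f y) ^ 2 ≤
      ∑ x ∈ U, f x ^ 2 - ∑ x ∈ U, f x * ∑ y ∈ U, kM G d U x y * f y := by
  have hd0 : (0 : ℝ) < d := by exact_mod_cast hd1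
  have h1 : ∑ x ∈ U, f x ^ 2 - ∑ x ∈ U, f x * ∑ y ∈ U, kM G d U x y * f y =
      (1 / (2 * d : ℝ)) * ∑ x ∈ U, ∑ y ∈ G.neighborFinset x, (f x ^ 2 - f x * f y) := by
    rw [← Finset.sum_sub_distrib, Finset.mul_sum]
    apply Finset.sum_congr rfl
    intro x hx
    rw [kM_apply hd1 hd hx f hf]
    have : ∑ y ∈ G.neighborFinset x, (f x ^ 2 - f x * f y) =
        f x * ∑ y ∈ G.neighborFinset x, (f x - f y) := by
      rw [Finset.mul_sum]
      apply Finset.sum_congr rfl
      intro y _
      ring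
    rw [this]
    ring
  rw [h1]
  have h2 := nb_sum_le (G := G) hd (U := U) (fun y => f y ^ 2) (fun y => sq_nonneg _)
    (fun y hy => by rw [hf y hy]; norm_num)
  have h3 : ∑ x ∈ U, (G.degree x : ℝ) * f x ^ 2 = ∑ x ∈ U, ∑ y ∈ G.neighborFinset x, f x ^ 2 := by
    apply Finset.sum_congr rfl
    intro x _
    rw [Finset.sum_const, nsmul_eq_mul, SimpleGraph.card_neighborFinset_eq_degree]
  have h4 : ∑ x ∈ U, ∑ y ∈ G.neighborFinset x, (f x - f y) ^ 2 =
      2 * ∑ x ∈ U, ∑ y ∈ G.neighborFinset x, (f x ^ 2 - f x * f y) +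
        (∑ x ∈ U, ∑ y ∈ G.neighborFinset x, f y ^ 2 -
          ∑ x ∈ U, ∑ y ∈ G.neighborFinset x, f x ^ 2) := by
    rw [← Finset.sum_sub_distrib, Finset.mul_sum, ← Finset.sum_add_distrib]
    apply Finset.sum_congr rfl
    intro x _
    rw [← Finset.sum_sub_distrib, Finset.mul_sum, ← Finset.sum_add_distrib]
    apply Finset.sum_congr rfl
    intro y _
    ring
  rw [h4]
  rw [h3] at h2
  set A := ∑ x ∈ U, ∑ y ∈ G.neighborFinset x, (f x ^ 2 - f x * f y)
  set B := ∑ x ∈ U, ∑ y ∈ G.neighborFinset x, f y ^ 2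
  set C := ∑ x ∈ U, ∑ y ∈ G.neighborFinset x, f x ^ 2
  have h5 : (1 / (2 * d : ℝ)) * A - (1 / (4 * d : ℝ)) * (2 * A + (B - C)) =
      (1 / (4 * d : ℝ)) * (C - B) := by
    field_simp
    ring
  have h6 : 0 ≤ (1 / (4 * d : ℝ)) * (C - B) := mul_nonneg (by positivity) (by linarith)
  linarith

/-- `M ^ 2 ≤ M`. -/
lemma sq_le {U : Finset V} (f : V → ℝ) (hf : ∀ y, y ∉ U → f y = 0) :
    ∑ x ∈ U, (∑ y ∈ U, kM G d U x y * f y) ^ 2 ≤
      ∑ x ∈ U, f x * ∑ y ∈ U, kM G d U x y * f y := by
  -- P = 2 M - 1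
  set g : V → ℝ := fun x => ∑ y ∈ U, kM G d U x y * f y with hg
  -- `(2 g - f)` has smaller norm
  have hP : ∀ x ∈ U, (2 * g x - f x) ^ 2 ≤
      (2 * ∑ y ∈ U, kM G d U x y * f y ^ 2) - f x ^ 2 := by
    intro x hx
    set w : V → ℝ := fun y => 2 * kM G d U x y - (if y = x then 1 else 0) with hw
    have hw0 : ∀ y ∈ U, 0 ≤ w y := by
      intro y hy
      simp only [hw]
      by_cases h : y = x
      · subst h
        rw [if_pos rfl]
        have e1 : kM G d U y y = 1 - (G.degree y : ℝ) / (2 * d) := by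
          unfold kM
          rw [if_pos ⟨hx, hx⟩, if_pos rfl]
        rw [e1]
        have := half_deg hd1 hd y
        linarith
      · rw [if_neg h]
        have := kM_nonneg hd1 hd U x y
        linarith
    have hws : ∑ y ∈ U, w y ≤ 1 := by
      simp only [hw]
      rw [Finset.sum_sub_distrib, ← Finset.mul_sum, Finset.sum_ite_eq' U x, if_pos hx]
      have := kM_row hd1 hd U x
      linarith
    have e2 : 2 * g x - f x = ∑ y ∈ U, w y * f y := by
      simp only [hw, hg, sub_mul, Finset.sum_sub_distrib, ite_mul, one_mul, zero_mul]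
      rw [Finset.sum_ite_eq' U x, if_pos hx, Finset.mul_sum]
      congr 1
      apply Finset.sum_congr rfl
      intro y _
      ring
    have e3 : (2 * ∑ y ∈ U, kM G d U x y * f y ^ 2) - f x ^ 2 = ∑ y ∈ U, w y * f y ^ 2 := by
      simp only [hw, sub_mul, Finset.sum_sub_distrib, ite_mul, one_mul, zero_mul]
      rw [Finset.sum_ite_eq' U x, if_pos hx, Finset.mul_sum]
      congr 1
      apply Finset.sum_congr rfl
      intro y _
      ring
    rw [e2, e3]
    have hcs : (∑ y ∈ U, w y * f y) ^ 2 ≤ (∑ y ∈ U, w y) * ∑ y ∈ U, w y * f y ^ 2 := by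
      have := Finset.sum_mul_sq_le_sq_mul_sq U (fun y => Real.sqrt (w y))
        (fun y => Real.sqrt (w y) * f y)
      have e4 : ∑ y ∈ U, Real.sqrt (w y) * (Real.sqrt (w y) * f y) = ∑ y ∈ U, w y * f y := by
        apply Finset.sum_congr rfl
        intro y hy
        rw [← mul_assoc, Real.mul_self_sqrt (hw0 y hy)]
      have e5 : ∑ y ∈ U, Real.sqrt (w y) ^ 2 = ∑ y ∈ U, w y := by
        apply Finset.sum_congr rfl
        intro y hy
        rw [Real.sq_sqrt (hw0 y hy)]
      have e6 : ∑ y ∈ U, (Real.sqrt (w y) * f y) ^ 2 = ∑ y ∈ U, w y * f y ^ 2 := by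
        apply Finset.sum_congr rfl
        intro y hy
        rw [mul_pow, Real.sq_sqrt (hw0 y hy)]
      rw [e4, e5, e6] at this
      exact this
    refine hcs.trans ?_
    have hnn : 0 ≤ ∑ y ∈ U, w y * f y ^ 2 :=
      Finset.sum_nonneg fun y hy => mul_nonneg (hw0 y hy) (sq_nonneg _)
    nlinarith
  have h1 := Finset.sum_le_sum hP
  rw [Finset.sum_sub_distrib, ← Finset.mul_sum] at h1
  have h2 : ∑ x ∈ U, ∑ y ∈ U, kM G d U x y * f y ^ 2 ≤ ∑ y ∈ U, f y ^ 2 := by
    rw [Finset.sum_comm]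
    apply Finset.sum_le_sum
    intro y _
    rw [← Finset.sum_mul]
    have := kM_col hd1 hd U y
    have h3 := sq_nonneg (f y)
    nlinarith
  have h3 : ∑ x ∈ U, (2 * g x - f x) ^ 2 =
      4 * ∑ x ∈ U, g x ^ 2 - 4 * ∑ x ∈ U, f x * g x + ∑ x ∈ U, f x ^ 2 := by
    rw [Finset.mul_sum, Finset.mul_sum, ← Finset.sum_sub_distrib, ← Finset.sum_add_distrib]
    apply Finset.sum_congr rfl
    intro x _
    ring
  rw [h3] at h1
  show ∑ x ∈ U, g x ^ 2 ≤ ∑ x ∈ U, f x * g x
  linarith

end deg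

/-! ### Co-area -/

open Classical in
/-- The layer cake inequality. -/
lemma coarea {K : ℝ} (hK : 0 ≤ K) (U : Finset V) (n : ℕ) : ∀ φ : V → ℝ, (∀ x, 0 ≤ φ x) →
    (∀ x, x ∉ U → φ x = 0) → (U.filter fun x => 0 < φ x).card ≤ n →
    (∀ W ⊆ U.filter (fun x => 0 < φ x), (W.card : ℝ) ≤
      K * ∑ w ∈ W, (((G.neighborFinset w).filter (fun z => z ∉ W)).card : ℝ)) →
    ∑ x ∈ U, φ x ≤ K * ∑ x ∈ U, ∑ y ∈ G.neighborFinset x, max (φ x - φ y) 0 := by
  induction n with
  | zero =>
    intro φ h0 hU hn _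
    have hA : U.filter (fun x => 0 < φ x) = ∅ := Finset.card_eq_zero.1 (Nat.le_zero.1 hn)
    have h1 : ∑ x ∈ U, φ x = 0 := by
      apply Finset.sum_eq_zero
      intro x hx
      by_contra h
      have : x ∈ U.filter (fun x => 0 < φ x) :=
        Finset.mem_filter.2 ⟨hx, lt_of_le_of_ne (h0 x) (Ne.symm h)⟩
      rw [hA] at this
      exact absurd this (Finset.notMem_empty _)
    rw [h1]
    exact mul_nonneg hK (Finset.sum_nonneg fun x _ => Finset.sum_nonneg fun y _ => le_max_right _ _)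
  | succ n ih =>
    intro φ h0 hU hn hW
    set A := U.filter (fun x => 0 < φ x) with hA
    rcases A.eq_empty_or_nonempty with hAe | hAne
    · exact ih φ h0 hU (by rw [← hA, hAe]; simp) hW
    · obtain ⟨x0, hx0, hmin⟩ := A.exists_min_image φ hAne
      set m := φ x0 with hm
      have hm0 : 0 < m := (Finset.mem_filter.1 hx0).2
      set ψ : V → ℝ := fun x => if x ∈ A then φ x - m else 0 with hψ
      have hnA : ∀ x, x ∉ A → φ x = 0 := by
        intro x hx
        by_cases hxU : x ∈ U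
        · by_contra h
          exact hx (Finset.mem_filter.2 ⟨hxU, lt_of_le_of_ne (h0 x) (Ne.symm h)⟩)
        · exact hU x hxU
      have hψ0 : ∀ x, 0 ≤ ψ x := by
        intro x
        simp only [hψ]
        split_ifs with h
        · have := hmin x h
          linarith
        · exact le_rfl
      have hψA : ∀ x, 0 < ψ x → x ∈ A := by
        intro x hx
        by_contra h
        simp only [hψ, if_neg h] at hx
        exact absurd hx (lt_irrefl _)
      have hsub : U.filter (fun x => 0 < ψ x) ⊆ A.erase x0 := by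
        intro x hx
        rw [Finset.mem_filter] at hx
        have hxA := hψA x hx.2
        rw [Finset.mem_erase]
        refine ⟨?_, hxA⟩
        rintro rfl
        have : ψ x = 0 := by simp only [hψ, if_pos hxA, hm, sub_self]
        rw [this] at hx
        exact absurd hx.2 (lt_irrefl _)
      have hcard : (U.filter fun x => 0 < ψ x).card ≤ n := by
        have h1 := Finset.card_le_card hsub
        rw [Finset.card_erase_of_mem hx0] at h1
        omega
      have h1 := ih ψ hψ0 (fun x hx => by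
          have : x ∉ A := fun h => hx (Finset.mem_filter.1 h).1
          simp only [hψ, if_neg this]) hcard
        (fun W hWs => hW W (hWs.trans (hsub.trans (Finset.erase_subset _ _))))
      have h2 := hW A (Finset.Subset.refl _)
      -- decomposition
      have e1 : ∑ x ∈ U, φ x = ∑ x ∈ U, ψ x + m * A.card := by
        have : ∀ x ∈ U, φ x = ψ x + (if x ∈ A then m else 0) := by
          intro x _
          simp only [hψ]
          by_cases h : x ∈ A
          · rw [if_pos h, if_pos h]; ring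
          · rw [if_neg h, if_neg h, hnA x h]; ring
        rw [Finset.sum_congr rfl this, Finset.sum_add_distrib]
        congr 1
        rw [← Finset.sum_filter]
        have : U.filter (fun x => x ∈ A) = A := by
          ext x
          rw [Finset.mem_filter]
          exact ⟨fun h => h.2, fun h => ⟨(Finset.mem_filter.1 h).1, h⟩⟩
        rw [this, Finset.sum_const, nsmul_eq_mul, mul_comm]
      have e2 : ∑ x ∈ U, ∑ y ∈ G.neighborFinset x, max (φ x - φ y) 0 =
          ∑ x ∈ U, ∑ y ∈ G.neighborFinset x, max (ψ x - ψ y) 0 +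
          m * ∑ w ∈ A, (((G.neighborFinset w).filter (fun z => z ∉ A)).card : ℝ) := by
        have h3 : ∀ x ∈ U, ∑ y ∈ G.neighborFinset x, max (φ x - φ y) 0 =
            ∑ y ∈ G.neighborFinset x, max (ψ x - ψ y) 0 +
              (if x ∈ A then m * (((G.neighborFinset x).filter (fun z => z ∉ A)).card : ℝ)
                else 0) := by
          intro x _
          by_cases hx : x ∈ A
          · rw [if_pos hx, Finset.card_filter]
            push_cast
            rw [Finset.mul_sum, ← Finset.sum_add_distrib]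
            apply Finset.sum_congr rfl
            intro y _
            have hψx : ψ x = φ x - m := by simp only [hψ, if_pos hx]
            by_cases hy : y ∈ A
            · have hψy : ψ y = φ y - m := by simp only [hψ, if_pos hy]
              rw [hψx, hψy, if_neg (not_not.2 hy)]
              ring_nf
            · have hψy : ψ y = 0 := by simp only [hψ, if_neg hy]
              rw [hψx, hψy, if_pos hy, hnA y hy]
              have := hmin x hx
              rw [max_eq_left (by linarith), max_eq_left (by linarith)]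
              ring
          · rw [if_neg hx, add_zero]
            apply Finset.sum_congr rfl
            intro y _
            have hψx : ψ x = 0 := by simp only [hψ, if_neg hx]
            rw [hψx, hnA x hx, max_eq_right (by have := h0 y; linarith),
              max_eq_right (by have := hψ0 y; linarith)]
        rw [Finset.sum_congr rfl h3, Finset.sum_add_distrib, ← Finset.sum_filter]
        have : U.filter (fun x => x ∈ A) = A := by
          ext x
          rw [Finset.mem_filter]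
          exact ⟨fun h => h.2, fun h => ⟨(Finset.mem_filter.1 h).1, h⟩⟩
        rw [this, Finset.mul_sum]
      rw [e1, e2]
      have h3 := mul_le_mul_of_nonneg_left h2 hm0.le
      nlinarith [h1, h3]

/-! ### Faber-Krahn and Nash -/

section deg

variable {d : ℕ} (hd1 : 1 ≤ d) (hd : ∀ v, G.degree v ≤ d)

include hd1 hd

open Classical in
lemma faber_krahn {K : ℝ} (hK : 0 < K) {U : Finset V} (g : V → ℝ) (h0 : ∀ x, 0 ≤ g x)
    (hg : ∀ x, x ∉ U → g x = 0)
    (hW : ∀ W ⊆ U.filter (fun x => 0 < g x), (W.card : ℝ) ≤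
      K * ∑ w ∈ W, (((G.neighborFinset w).filter (fun z => z ∉ W)).card : ℝ)) :
    ∑ x ∈ U, g x ^ 2 ≤
      4 * K ^ 2 * d * ∑ x ∈ U, ∑ y ∈ G.neighborFinset x, (g x - g y) ^ 2 := by
  have hd0 : (0 : ℝ) < d := by exact_mod_cast hd1
  have hf : ∀ x, (0 < g x ^ 2 ↔ 0 < g x) := by
    intro x
    constructor
    · intro h
      exact lt_of_le_of_ne (h0 x) (fun h' => by rw [← h'] at h; norm_num at h)
    · intro h; positivity
  have h1 := coarea (G := G) hK.le U (U.filter fun x => 0 < g x ^ 2).card (fun x => g x ^ 2)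
    (fun x => sq_nonneg _) (fun x hx => by rw [hg x hx]; norm_num) le_rfl (by
      intro W hWs
      apply hW W
      refine hWs.trans ?_
      intro x hx
      rw [Finset.mem_filter] at hx ⊢
      exact ⟨hx.1, (hf x).1 hx.2⟩)
  have h2 : ∑ x ∈ U, ∑ y ∈ G.neighborFinset x, max (g x ^ 2 - g y ^ 2) 0 ≤
      ∑ x ∈ U, ∑ y ∈ G.neighborFinset x,
        (1 / (2 * K * d) * g x ^ 2 + 2 * K * d * (g x - g y) ^ 2) := by
    apply Finset.sum_le_sum
    intro x _
    apply Finset.sum_le_sum
    intro y _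
    have hx := h0 x
    have hy := h0 y
    have hnn : 0 ≤ 1 / (2 * K * d) * g x ^ 2 + 2 * K * d * (g x - g y) ^ 2 := by positivity
    apply max_le _ hnn
    by_cases hxy : g y ≤ g x
    · have e1 : g x ^ 2 - g y ^ 2 ≤ 2 * (g x * (g x - g y)) := by nlinarith
      refine e1.trans ?_
      have e2 : 0 ≤ (1 / (2 * K * d)) * (g x - 2 * K * d * (g x - g y)) ^ 2 := by positivity
      have e3 : (1 / (2 * K * d)) * (g x - 2 * K * d * (g x - g y)) ^ 2 =
          1 / (2 * K * d) * g x ^ 2 - 2 * (g x * (g x - g y)) +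
            2 * K * d * (g x - g y) ^ 2 := by
        field_simp
        ring
      linarith
    · have : g x ^ 2 - g y ^ 2 ≤ 0 := by nlinarith
      linarith
  have h3 : ∑ x ∈ U, ∑ y ∈ G.neighborFinset x,
        (1 / (2 * K * d) * g x ^ 2 + 2 * K * d * (g x - g y) ^ 2) ≤
      1 / (2 * K) * ∑ x ∈ U, g x ^ 2 +
        2 * K * d * ∑ x ∈ U, ∑ y ∈ G.neighborFinset x, (g x - g y) ^ 2 := by
    rw [Finset.mul_sum, Finset.mul_sum, ← Finset.sum_add_distrib]
    apply Finset.sum_le_sum
    intro x _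
    have e0 : ∑ y ∈ G.neighborFinset x,
        (1 / (2 * K * d) * g x ^ 2 + 2 * K * d * (g x - g y) ^ 2) =
        (G.degree x : ℝ) * (1 / (2 * K * d) * g x ^ 2) +
          2 * K * d * ∑ y ∈ G.neighborFinset x, (g x - g y) ^ 2 := by
      rw [Finset.sum_add_distrib, Finset.sum_const,
        SimpleGraph.card_neighborFinset_eq_degree, nsmul_eq_mul, Finset.mul_sum]
    rw [e0]
    apply add_le_add _ le_rfl
    have h4 : (G.degree x : ℝ) ≤ d := by exact_mod_cast hd x
    have e : 1 / (2 * K) * g x ^ 2 = (d : ℝ) * (1 / (2 * K * d) * g x ^ 2) := by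
      field_simp
    rw [e]
    exact mul_le_mul_of_nonneg_right h4 (by positivity)
  have h4 := h1.trans (mul_le_mul_of_nonneg_left (h2.trans h3) hK.le)
  set N := ∑ x ∈ U, g x ^ 2
  set Q := ∑ x ∈ U, ∑ y ∈ G.neighborFinset x, (g x - g y) ^ 2
  have e5 : K * (1 / (2 * K) * N + 2 * K * d * Q) = N / 2 + 2 * K ^ 2 * d * Q := by
    field_simp
  rw [e5] at h4
  nlinarith

open Classical in
/-- One step of the walk. -/
lemma step {K : ℝ} (hK : 0 < K) {U : Finset V} {κ : ℝ} (hκ : 0 < κ)
    (hiso : ∀ W : Finset V, (W.card : ℝ) ≤ 4 / κ → (W.card : ℝ) ≤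
      K * ∑ w ∈ W, (((G.neighborFinset w).filter (fun z => z ∉ W)).card : ℝ))
    (f : V → ℝ) (h0 : ∀ x, 0 ≤ f x) (hf : ∀ x, x ∉ U → f x = 0) (hs : ∑ x ∈ U, f x ≤ 1)
    (hN : κ ≤ ∑ x ∈ U, f x ^ 2) :
    ∑ x ∈ U, (∑ y ∈ U, kM G d U x y * f y) ^ 2 ≤
      (1 - 1 / (32 * K ^ 2 * d ^ 2)) * ∑ x ∈ U, f x ^ 2 := by
  have hd0 : (0 : ℝ) < d := by exact_mod_cast hd1
  set N := ∑ x ∈ U, f x ^ 2 with hNdef
  have hN0 : 0 < N := lt_of_lt_of_le hκ hN
  set a := N / 4 with ha
  have ha0 : 0 < a := by positivity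
  set g : V → ℝ := fun x => max (f x - a) 0 with hg
  have hFK := faber_krahn hd1 hd hK (U := U) g (fun x => le_max_right _ _)
    (fun x hx => by
      simp only [hg]
      rw [hf x hx]
      exact max_eq_right (by linarith))
    (by
      intro W hWs
      apply hiso
      have h1 : (W.card : ℝ) * a ≤ 1 := by
        rw [← nsmul_eq_mul, ← Finset.sum_const]
        refine le_trans ?_ hs
        calc ∑ x ∈ W, a ≤ ∑ x ∈ W, f x := by
              apply Finset.sum_le_sum
              intro x hx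
              have h2 := (Finset.mem_filter.1 (hWs hx)).2
              simp only [hg] at h2
              by_contra h
              rw [max_eq_right (by linarith)] at h2
              exact absurd h2 (lt_irrefl _)
          _ ≤ ∑ x ∈ U, f x := by
              apply Finset.sum_le_sum_of_subset_of_nonneg
              · exact hWs.trans (Finset.filter_subset _ _)
              · intro x _ _; exact h0 x
      rw [le_div_iff₀ hκ]
      have hc : (0 : ℝ) ≤ W.card := Nat.cast_nonneg _
      rw [ha] at h1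
      nlinarith)
  have h1 : ∑ x ∈ U, ∑ y ∈ G.neighborFinset x, (g x - g y) ^ 2 ≤
      ∑ x ∈ U, ∑ y ∈ G.neighborFinset x, (f x - f y) ^ 2 := by
    apply Finset.sum_le_sum
    intro x _
    apply Finset.sum_le_sum
    intro y _
    rw [← sq_abs (g x - g y), ← sq_abs (f x - f y)]
    apply pow_le_pow_left₀ (abs_nonneg _)
    have := abs_max_sub_max_le_abs (f x - a) (f y - a) 0
    simp only [hg]
    refine this.trans (le_of_eq ?_)
    congr 1
    ring
  have h2 : N ≤ ∑ x ∈ U, g x ^ 2 + 2 * a := by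
    have h3 : ∑ x ∈ U, f x ^ 2 ≤ ∑ x ∈ U, (g x ^ 2 + 2 * a * f x) := by
      apply Finset.sum_le_sum
      intro x _
      have hx := h0 x
      simp only [hg]
      by_cases h : a ≤ f x
      · rw [max_eq_left (by linarith)]
        nlinarith [sq_nonneg a]
      · rw [max_eq_right (by linarith)]
        nlinarith
    rw [Finset.sum_add_distrib, ← Finset.mul_sum] at h3
    have h4 : 2 * a * ∑ x ∈ U, f x ≤ 2 * a * 1 := mul_le_mul_of_nonneg_left hs (by positivity)
    linarith
  have h3 := energy hd1 hd (U := U) f hf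
  have h4 := sq_le hd1 hd (U := U) f hf
  set Q := ∑ x ∈ U, ∑ y ∈ G.neighborFinset x, (f x - f y) ^ 2
  have h5 : N ≤ 8 * K ^ 2 * d * Q := by
    have h6 : (4 * K ^ 2 * d) * ∑ x ∈ U, ∑ y ∈ G.neighborFinset x, (g x - g y) ^ 2 ≤
        (4 * K ^ 2 * d) * Q := mul_le_mul_of_nonneg_left h1 (by positivity)
    rw [ha] at h2
    linarith
  have h6 : 1 / (32 * K ^ 2 * d ^ 2) * N ≤ 1 / (4 * d : ℝ) * Q := by
    have : 1 / (32 * K ^ 2 * d ^ 2) * N ≤ 1 / (32 * K ^ 2 * d ^ 2) * (8 * K ^ 2 * d * Q) :=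
      mul_le_mul_of_nonneg_left h5 (by positivity)
    refine this.trans (le_of_eq ?_)
    field_simp
    ring
  linarith

omit hd1 hd in
lemma pw_zero_left {U : Finset V} {x : V} (hx : x ∉ U) (t : ℕ) (y : V) :
    pw U (kM G d U) t x y = 0 := by
  cases t with
  | zero => exact kM_zero_left hx y
  | succ t =>
    show ∑ z ∈ U, kM G d U x z * pw U (kM G d U) t z y = 0
    apply Finset.sum_eq_zero
    intro z _
    rw [kM_zero_left hx, zero_mul]

lemma pw_nonneg (U : Finset V) (t : ℕ) (x y : V) : 0 ≤ pw U (kM G d U) t x y := by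
  induction t generalizing x with
  | zero => exact kM_nonneg hd1 hd U x y
  | succ t ih =>
    show 0 ≤ ∑ z ∈ U, kM G d U x z * pw U (kM G d U) t z y
    exact Finset.sum_nonneg fun z _ => mul_nonneg (kM_nonneg hd1 hd U x z) (ih z)

lemma pw_mass (U : Finset V) (t : ℕ) (y : V) : ∑ x ∈ U, pw U (kM G d U) t x y ≤ 1 := by
  induction t with
  | zero => exact kM_col hd1 hd U y
  | succ t ih =>
    show ∑ x ∈ U, ∑ z ∈ U, kM G d U x z * pw U (kM G d U) t z y ≤ 1
    rw [Finset.sum_comm]
    refine le_trans ?_ ih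
    apply Finset.sum_le_sum
    intro z _
    rw [← Finset.sum_mul]
    have h1 := kM_col hd1 hd U z
    have h2 := pw_nonneg hd1 hd U t z y
    nlinarith

open Classical in
lemma decay {K : ℝ} (hK : 1 ≤ K) {U : Finset V} {κ : ℝ} (hκ : 0 < κ)
    (hiso : ∀ W : Finset V, (W.card : ℝ) ≤ 4 / κ → (W.card : ℝ) ≤
      K * ∑ w ∈ W, (((G.neighborFinset w).filter (fun z => z ∉ W)).card : ℝ)) (y : V) (t : ℕ) :
    ∑ x ∈ U, pw U (kM G d U) t x y ^ 2 ≤ max κ ((1 - 1 / (32 * K ^ 2 * d ^ 2)) ^ t) := by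
  have hd0 : (1 : ℝ) ≤ d := by exact_mod_cast hd1
  set q : ℝ := 1 - 1 / (32 * K ^ 2 * d ^ 2) with hq
  have hden : (1 : ℝ) ≤ 32 * K ^ 2 * d ^ 2 := by
    have h1 : (1 : ℝ) ≤ K ^ 2 := one_le_pow₀ hK
    have h2 : (1 : ℝ) ≤ (d : ℝ) ^ 2 := one_le_pow₀ hd0
    nlinarith
  have hq0 : 0 ≤ q := by
    have : 1 / (32 * K ^ 2 * d ^ 2) ≤ 1 := by
      rw [div_le_one (by linarith)]
      exact hden
    linarith
  have hq1 : q ≤ 1 := by
    have : 0 ≤ 1 / (32 * K ^ 2 * d ^ 2 : ℝ) := by positivity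
    linarith
  induction t with
  | zero =>
    refine le_trans ?_ (le_max_right _ _)
    rw [pow_zero]
    refine le_trans ?_ (pw_mass hd1 hd U 0 y)
    apply Finset.sum_le_sum
    intro x hx
    have h1 := pw_nonneg hd1 hd U 0 x y
    have h2 : pw U (kM G d U) 0 x y ≤ 1 :=
      (Finset.single_le_sum (f := fun x => pw U (kM G d U) 0 x y)
        (fun z _ => pw_nonneg hd1 hd U 0 z y) hx).trans (pw_mass hd1 hd U 0 y)
    nlinarith
  | succ t ih =>
    set f : V → ℝ := fun x => pw U (kM G d U) t x y with hf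
    have e1 : ∑ x ∈ U, pw U (kM G d U) (t + 1) x y ^ 2 =
        ∑ x ∈ U, (∑ z ∈ U, kM G d U x z * f z) ^ 2 := rfl
    have hf0 : ∀ x, x ∉ U → f x = 0 := fun x hx => pw_zero_left hx t y
    rw [e1]
    by_cases hN : κ ≤ ∑ x ∈ U, f x ^ 2
    · have h1 := step hd1 hd (by linarith) hκ hiso f (fun x => pw_nonneg hd1 hd U t x y) hf0
        (pw_mass hd1 hd U t y) hN
      refine h1.trans ?_
      rcases le_max_iff.1 ih with h2 | h2
      · refine le_trans ?_ (le_max_left _ _)
        have h3 : 0 ≤ ∑ x ∈ U, f x ^ 2 := by linarith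
        nlinarith
      · refine le_trans ?_ (le_max_right _ _)
        rw [show q ^ (t + 1) = q * q ^ t from pow_succ' q t]
        exact mul_le_mul_of_nonneg_left h2 hq0
    · rw [not_le] at hN
      refine le_trans ?_ (le_max_left _ _)
      have h3 := energy hd1 hd (U := U) f hf0
      have h4 := sq_le hd1 hd (U := U) f hf0
      have h5 : 0 ≤ (1 / (4 * d : ℝ)) * ∑ x ∈ U, ∑ y ∈ G.neighborFinset x, (f x - f y) ^ 2 := by
        positivity
      linarith

end deg

open Classical in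
/-- **The heat kernel bound.** -/
theorem heat (hG : G.Connected) {R : Finset V} (hR : ∀ x : V, ∃ g : G ≃g G, g x ∈ R)
    (hAm : IsAmenable G) {d : ℕ} (hd1 : 1 ≤ d) (hd : ∀ v, G.degree v ≤ d) :
    Stmts.HeatStmt G d := by
  obtain ⟨C1, hC1, hiso⟩ := R2.H279.isoperimetric hG hR hAm
  set C2 := C1 + 1 with hC2
  have hC2p : 1 ≤ C2 := by linarith
  have hd0 : (1 : ℝ) ≤ d := by exact_mod_cast hd1
  refine ⟨128 * C2 ^ 2 * d ^ 2 + 4, by positivity, ?_⟩
  intro U κ r j hκ hκ1 hball hj x y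
  -- r ≥ 1
  have hlog : 0 ≤ Real.log (1 / κ) := Real.log_nonneg (by rw [le_div_iff₀ hκ]; linarith)
  have hr : 1 ≤ r := by
    by_contra h
    have hr0 : r = 0 := by omega
    subst hr0
    have h1 := hball x
    have h2 : (ballF G x 0).card = 1 := by
      have : ballF G x 0 = {x} := by
        ext z
        rw [mem_ballF_iff hG, Finset.mem_singleton]
        constructor
        · intro h'
          exact hG.dist_eq_zero_iff.1 (Nat.le_zero.1 h')
        · rintro rfl
          simp
      rw [this, Finset.card_singleton]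
    rw [h2] at h1
    have h3 : 8 ≤ 8 / κ := by
      rw [le_div_iff₀ hκ]; linarith
    norm_num at h1
    linarith
  have hr' : (1 : ℝ) ≤ r := by exact_mod_cast hr
  set K : ℝ := C2 * r with hKdef
  have hK : 1 ≤ K := by nlinarith
  have hiso' : ∀ W : Finset V, (W.card : ℝ) ≤ 4 / κ → (W.card : ℝ) ≤
      K * ∑ w ∈ W, (((G.neighborFinset w).filter (fun z => z ∉ W)).card : ℝ) := by
    intro W hW
    have h1 := hiso W r (by
      intro z
      have h2 := hball z
      have h3 : (2 * W.card : ℝ) ≤ (ballF G z r).card := by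
        have : 8 / κ = 2 * (4 / κ) := by ring
        linarith
      exact_mod_cast h3)
    refine h1.trans ?_
    have h2 : 0 ≤ ∑ w ∈ W, (((G.neighborFinset w).filter (fun z => z ∉ W)).card : ℝ) :=
      Finset.sum_nonneg fun w _ => Nat.cast_nonneg _
    apply mul_le_mul_of_nonneg_right _ h2
    rw [hKdef, hC2]
    nlinarith
  -- j ≥ 2
  have hC4 : (4 : ℝ) ≤ 2 ^ j := by
    refine le_trans ?_ hj
    have h1 : (4 : ℝ) ≤ 128 * C2 ^ 2 * d ^ 2 + 4 := by nlinarith [sq_nonneg (C2 * d)]
    have h2 : (1 : ℝ) ≤ (r : ℝ) ^ 2 := one_le_pow₀ hr'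
    have h3 : (1 : ℝ) ≤ (r : ℝ) ^ 2 * (1 + Real.log (1 / κ)) := by nlinarith
    calc (4 : ℝ) = 4 * 1 := by ring
      _ ≤ (128 * C2 ^ 2 * d ^ 2 + 4) * ((r : ℝ) ^ 2 * (1 + Real.log (1 / κ))) :=
        mul_le_mul h1 h3 (by norm_num) (by linarith)
      _ = _ := by ring
  have hj2 : 2 ≤ j := by
    by_contra h
    have : j = 0 ∨ j = 1 := by omega
    rcases this with rfl | rfl <;> norm_num at hC4
  obtain ⟨i, rfl⟩ : ∃ i, j = i + 1 := ⟨j - 1, by omega⟩
  -- number of steps
  have hsteps : (1 - 1 / (32 * K ^ 2 * d ^ 2)) ^ (2 ^ i - 1) ≤ κ := by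
    set ε : ℝ := 1 / (32 * K ^ 2 * d ^ 2) with hε
    have hKd : 0 < 32 * K ^ 2 * (d : ℝ) ^ 2 := by positivity
    have hε0 : 0 < ε := by positivity
    have hε1 : ε ≤ 1 := by
      rw [hε, div_le_one hKd]
      have h1 : (1 : ℝ) ≤ K ^ 2 := one_le_pow₀ hK
      have h2 : (1 : ℝ) ≤ (d : ℝ) ^ 2 := one_le_pow₀ hd0
      nlinarith
    have ht : Real.log (1 / κ) ≤ ε * ((2 ^ i - 1 : ℕ) : ℝ) := by
      have h1 : (2 : ℝ) ^ (i + 1) / 4 ≤ ((2 ^ i - 1 : ℕ) : ℝ) := by
        have h2 : 1 ≤ 2 ^ i := Nat.one_le_two_pow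
        rw [Nat.cast_sub h2]
        push_cast
        have h3 : (2 : ℝ) ≤ 2 ^ i := by
          have : (2 : ℝ) ^ (i + 1) = 2 * 2 ^ i := by rw [pow_succ]; ring
          linarith
        rw [pow_succ]
        linarith
      have h4 : (32 * K ^ 2 * d ^ 2) * Real.log (1 / κ) ≤ (2 : ℝ) ^ (i + 1) / 4 := by
        rw [le_div_iff₀ (by norm_num : (0 : ℝ) < 4)]
        refine le_trans ?_ hj
        rw [hKdef]
        have h5 : 0 ≤ (r : ℝ) ^ 2 * Real.log (1 / κ) := by positivity
        have h6 : 0 ≤ (r : ℝ) ^ 2 := by positivity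
        have h7 : 0 ≤ C2 ^ 2 * (d : ℝ) ^ 2 * (r : ℝ) ^ 2 := by positivity
        nlinarith
      rw [hε, div_mul_eq_mul_div, one_mul, le_div_iff₀ hKd]
      linarith
    calc (1 - ε) ^ (2 ^ i - 1) ≤ (Real.exp (-ε)) ^ (2 ^ i - 1) := by
          apply pow_le_pow_left₀ (by linarith)
          have := Real.add_one_le_exp (-ε)
          linarith
      _ = Real.exp (-(ε * ((2 ^ i - 1 : ℕ) : ℝ))) := by
          rw [← Real.exp_nat_mul]
          congr 1
          ring
      _ ≤ Real.exp (-Real.log (1 / κ)) := Real.exp_le_exp.2 (by linarith)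
      _ = κ := by
          rw [one_div, Real.log_inv, neg_neg, Real.exp_log hκ]
  have hdec : ∀ z, ∑ w ∈ U, pw U (kM G d U) (2 ^ i - 1) w z ^ 2 ≤ κ := fun z =>
    (decay hd1 hd hK hκ hiso' z (2 ^ i - 1)).trans (max_le le_rfl hsteps)
  show ∑ z ∈ U, qq U (kM G d U) i x z * qq U (kM G d U) i z y ≤ κ
  rw [qq_eq]
  calc ∑ z ∈ U, pw U (kM G d U) (2 ^ i - 1) x z * pw U (kM G d U) (2 ^ i - 1) z y
      ≤ ∑ z ∈ U, (pw U (kM G d U) (2 ^ i - 1) z x ^ 2 / 2 +
          pw U (kM G d U) (2 ^ i - 1) z y ^ 2 / 2) := by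
        apply Finset.sum_le_sum
        intro z _
        rw [pw_symm U (fun a b => kM_symm (G := G) d U a b) _ x z]
        nlinarith [sq_nonneg (pw U (kM G d U) (2 ^ i - 1) z x -
          pw U (kM G d U) (2 ^ i - 1) z y)]
    _ = (∑ z ∈ U, pw U (kM G d U) (2 ^ i - 1) z x ^ 2) / 2 +
          (∑ z ∈ U, pw U (kM G d U) (2 ^ i - 1) z y ^ 2) / 2 := by
        rw [Finset.sum_add_distrib, Finset.sum_div, Finset.sum_div]
    _ ≤ κ := by
        have h1 := hdec x
        have h2 := hdec y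
        linarith

end Vale.Agent.P151.H820
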